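import Vale.Agent.P082.Every.Final
import Vale.Agent.P082.Every.A.Main
import Vale.Agent.P082.Every.B.Main
import Vale.Agent.P082.Every.C2.Main
import Vale.Agent.P082.Every.D.Main

/-!
# The Kadison-Ringrose cohomology conjecture
-/

namespace Vale.Agent.Results.P082.KadisonRingrose

open Vale.Agent.P082

universe u

/-- Every bounded Hochschild cocycle of every von Neumann algebra is a coboundary. -/
theorem result : ∀ (H : Type u) [NormedAddCommGroup H] [InnerProductSpace ℂ H] [CompleteSpace H]
    (M : VonNeumannAlgebra H), Statement.CohomologyVanishes M := by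
  intro H _ _ _ M
  exact Every.cohomologyVanishes_every Every.A.stmtA Every.B.stmtB Every.C2.stmtC2 Every.D.stmtD H M

end Vale.Agent.Results.P082.KadisonRingrose
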